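import Vale.Agent.P207.H596.Ray.Rdat
import Vale.Agent.P207.SPH.H128.Sys
import Vale.Agent.P207.SPH.H453.RayI
import Vale.Agent.P207.SPH.H453.BwGeo
import Vale.Agent.P207.SPH.H40.RayP

/-!
# P207: the inequalities along all rays in the case of equality of the entropies
-/

open scoped Manifold ContDiff ENNReal Topology Matrix
open Bundle MeasureTheory Set Filter

set_option maxSynthPendingDepth 3
set_option linter.unusedSectionVars false

noncomputable section

namespace Vale.Agent.P207.H596.Ray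

open Vale.Agent.P255 (RMetric)
open Vale.Agent.P207 Vale.Agent.P207.Q Vale.Agent.P207.Q.H130 Vale.Agent.P207.N4

theorem le_of_freq {c d C : ℝ} (h : ∃ᶠ T : ℝ in atTop, 0 ≤ T → c * T ≤ d * T + C) : c ≤ d := by
  by_contra hlt
  push Not at hlt
  have h1 : ∀ᶠ T : ℝ in atTop, max 0 (C / (c - d)) < T := eventually_gt_atTop _
  obtain ⟨T, hT, hT'⟩ := (h.and_eventually h1).exists
  have h2 : 0 < T := lt_of_le_of_lt (le_max_left _ _) hT'
  have h3 : C / (c - d) < T := lt_of_le_of_lt (le_max_right _ _) hT'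
  have h4 := hT h2.le
  rw [div_lt_iff₀ (by linarith)] at h3
  nlinarith

section

variable [Dim] {M : Type} [TopologicalSpace M] [ChartedSpace (EV (Dim.m + 1)) M]
  [IsManifold 𝓘(ℝ, EV (Dim.m + 1)) ∞ M] [CompactSpace M] [T2Space M]
  {g : RMetric (EV (Dim.m + 1)) M}

/-- the trace of the curvature along an orbit, from below -/
theorem ric_orbit [Nonempty (Fr g)] {D : N4.MDat g ((horFlows g).Φ 0)} {h : ℝ} (R : N4.RDat D h) :
    ∃ C, ∀ (f : Fr g) (T : ℝ), 0 ≤ T →
      h ^ 2 * T ≤ Dim.m * (∫ s in (0 : ℝ)..T, (Km g ((horFlows g).Φ 0 s f)).trace) + C := by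
  have hΦ := (horFlows g).hor 0
  have hcont := (horFlows g).cont 0
  have := compactSpace_UT g
  refine ⟨2 * (Dim.m * ‖D.t‖ + |2 * h| * ‖R.r‖), fun f T hT => ?_⟩
  have horb : Continuous fun s => (horFlows g).Φ 0 s f := hcont.comp (Continuous.prodMk_left f)
  have hK : Continuous fun s => (Km g ((horFlows g).Φ 0 s f)).trace :=
    (H832.N4.continuous_KmM.comp horb).matrix_trace
  have hU : Continuous fun s => D.U ((horFlows g).Φ 0 s f) := D.cont.comp horb
  have hUU : Continuous fun s =>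
      (D.U ((horFlows g).Φ 0 s f) * D.U ((horFlows g).Φ 0 s f)).trace :=
    (hU.matrix_mul hU).matrix_trace
  have ht : Continuous fun s => D.t (((horFlows g).Φ 0 s f).ut 0) := by
    have e : (fun s => D.t (((horFlows g).Φ 0 s f).ut 0)) =
        fun s => (D.U ((horFlows g).Φ 0 s f)).trace := by
      funext s
      exact D.t_eq _
    rw [e]
    exact hU.matrix_trace
  have h1 := intervalIntegral.integral_eq_sub_of_hasDerivAt (a := 0) (b := T)
    (fun t _ => D.hasDerivAt_t f t) ((hK.sub hUU).intervalIntegrable _ _)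
  rw [intervalIntegral.integral_sub (hK.intervalIntegrable _ _) (hUU.intervalIntegrable _ _)] at h1
  have h2 : ∫ s in (0 : ℝ)..T, (2 * h * D.t (((horFlows g).Φ 0 s f).ut 0) - h ^ 2) ≤
      ∫ s in (0 : ℝ)..T, Dim.m *
        (D.U ((horFlows g).Φ 0 s f) * D.U ((horFlows g).Φ 0 s f)).trace := by
    refine intervalIntegral.integral_mono_on hT
      (((continuous_const.mul ht).sub continuous_const).intervalIntegrable _ _)
      ((continuous_const.mul hUU).intervalIntegrable _ _) fun s _ => ?_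
    have h3 := sq_trace_le (D.symm hΦ ((horFlows g).Φ 0 s f))
    rw [D.t_eq]
    nlinarith [sq_nonneg ((D.U ((horFlows g).Φ 0 s f)).trace - h)]
  have ht2 : Continuous fun s => 2 * h * D.t (((horFlows g).Φ 0 s f).ut 0) :=
    continuous_const.mul ht
  rw [intervalIntegral.integral_const_mul, intervalIntegral.integral_sub
    (ht2.intervalIntegrable _ _) (continuous_const.intervalIntegrable _ _),
    intervalIntegral.integral_const_mul, intervalIntegral.integral_const, smul_eq_mul,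
    sub_zero] at h2
  have h4 := R.coc f T
  have h5 : ∀ F : C(UT g, ℝ), ∀ p q, |F p - F q| ≤ 2 * ‖F‖ := fun F p q => by
    have e1 := F.norm_coe_le_norm p
    have e2 := F.norm_coe_le_norm q
    rw [Real.norm_eq_abs] at e1 e2
    calc |F p - F q| ≤ |F p| + |F q| := abs_sub _ _
      _ ≤ _ := by linarith
  have h6 := h5 D.t (((horFlows g).Φ 0 T f).ut 0) (((horFlows g).Φ 0 0 f).ut 0)
  have h7 := h5 R.r (((horFlows g).Φ 0 T f).ut 0) (f.ut 0)
  have h8 : 2 * h * (R.r (((horFlows g).Φ 0 T f).ut 0) - R.r (f.ut 0)) ≤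
      |2 * h| * (2 * ‖R.r‖) := by
    refine (le_abs_self _).trans ?_
    rw [abs_mul]
    exact mul_le_mul_of_nonneg_left h7 (abs_nonneg _)
  have h9 : -((Dim.m : ℝ) * (2 * ‖D.t‖)) ≤ Dim.m *
      (D.t (((horFlows g).Φ 0 T f).ut 0) - D.t (((horFlows g).Φ 0 0 f).ut 0)) := by
    rw [← mul_neg]
    exact mul_le_mul_of_nonneg_left (abs_le.1 h6).1 (Nat.cast_nonneg _)
  have h10 : ∫ s in (0 : ℝ)..T, D.t (((horFlows g).Φ 0 s f).ut 0) =
      h * T - (R.r (((horFlows g).Φ 0 T f).ut 0) - R.r (f.ut 0)) := by linarith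
  rw [h10] at h2
  have h11 : (Dim.m : ℝ) * ((∫ s in (0 : ℝ)..T, (Km g ((horFlows g).Φ 0 s f)).trace) -
      ∫ s in (0 : ℝ)..T, (D.U ((horFlows g).Φ 0 s f) * D.U ((horFlows g).Φ 0 s f)).trace) =
      Dim.m * (D.t (((horFlows g).Φ 0 T f).ut 0) - D.t (((horFlows g).Φ 0 0 f).ut 0)) := by
    rw [h1]
  rw [mul_sub] at h11
  nlinarith

/-- the integral of `tr U` along an orbit, from above -/
theorem tr_orbit [Nonempty (Fr g)] {D : N4.MDat g ((horFlows g).Φ 0)} {h : ℝ} (R : N4.RDat D h) :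
    ∃ C, ∀ (f : Fr g) (T : ℝ),
      ∫ s in (0 : ℝ)..T, (D.U ((horFlows g).Φ 0 s f)).trace ≤ h * T + C := by
  have := compactSpace_UT g
  refine ⟨2 * ‖R.r‖, fun f T => ?_⟩
  have h4 := R.coc f T
  have e : ∫ s in (0 : ℝ)..T, (D.U ((horFlows g).Φ 0 s f)).trace =
      ∫ s in (0 : ℝ)..T, D.t (((horFlows g).Φ 0 s f).ut 0) := by
    refine intervalIntegral.integral_congr fun s _ => ?_
    exact (D.t_eq _).symm
  have e1 := R.r.norm_coe_le_norm (((horFlows g).Φ 0 T f).ut 0)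
  have e2 := R.r.norm_coe_le_norm (f.ut 0)
  rw [Real.norm_eq_abs] at e1 e2
  have e3 := abs_le.1 e1
  have e4 := abs_le.1 e2
  rw [e]
  linarith [e3.1, e4.2]

/-- `sqrtCurv` is continuous -/
theorem exists_sqrt : ∃ F : C(UT g, ℝ), ∀ p, F p = P207F.sqrtCurv g p := by
  have hc : Continuous fun f : Fr g => SPH.H453.qK (Km g f) :=
    SPH.H453.continuous_qK.comp H832.N4.continuous_KmM
  obtain ⟨F, hF⟩ := exists_desc (g := g) (Y := ℝ) ⟨fun f => SPH.H453.qK (Km g f), hc⟩
    (fun A hA f => by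
      have h1 := SPH.H453.sqrtCurv_frame (g := g) f
      have h2 := SPH.H453.sqrtCurv_frame (g := g) (Fr.rot A f)
      rw [H665.ut_rot hA, h1] at h2
      exact h2.symm)
  refine ⟨F, fun p => ?_⟩
  obtain ⟨f, rfl⟩ := H892.exists_frame_ut p
  rw [hF, SPH.H453.sqrtCurv_frame]
  rfl

theorem int_ut {ν : @Measure (UT g) (instMeasurableSpaceUT g)} [MeasurableSpace (Fr g)]
    {mP : Measure (Fr g)} (hP : MeasurePreserving (fun f : Fr g => f.ut 0) mP ν) (F : C(UT g, ℝ)) :
    ∫ v, F v ∂ν = ∫ f, F (f.ut 0) ∂mP := by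
  rw [← hP.map_eq, integral_map hP.measurable.aemeasurable
    F.continuous.aestronglyMeasurable]

/-- **the inequalities**, in the dimension `Dim.m + 1` -/
theorem ray_dim [ConnectedSpace M] [MeasurableSpace M] [BorelSpace M]
    (hN : P207F.NegCurvature g) : P207F.Ray.RayIneq g := by
  intro he
  have hW := P207F.wellDefined (n := Dim.m + 1) (by have := Dim.two_le; omega) g
  have hφ := (hW.1 _).2 rfl
  have hμ := (hW.2.1 _).2 rfl
  have hm := (hW.2.2 _).2 rfl
  have heq : ksEntropy (P207F.liou (P207F.stdB (Dim.m + 1)) g) (P207F.geoFlow g 1) =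
      topEntropy (P207F.geoFlow g 1) := he
  have hN' : NegCurvature g := P207F.negCurvature_iff.1 hN
  obtain ⟨-, hne, hmp, mP, hP, hprob, hop⟩ := H582.exists_setting hφ hμ hm
  obtain ⟨D⟩ := N4.exists_MDat hN' hφ
  have hΦ := (horFlows g).hor 0
  obtain ⟨h, hh⟩ : ∃ h, h = (P207F.hTop g).toReal := ⟨_, rfl⟩
  obtain ⟨R⟩ : Nonempty (N4.RDat D h) := by
    rw [hh]
    exact exists_rdat hN' D hφ hμ hm heq
  obtain ⟨hpos, hI⟩ : 0 < h ∧ ∫ p, D.t p ∂(P207F.liou (P207F.stdB (Dim.m + 1)) g) = h := by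
    obtain ⟨h1, h2, -⟩ := exists_psi_N3 hΦ D hN' hφ hμ hm heq
    rw [hh]
    exact ⟨h1, h2⟩
  have hsq : h ^ 2 ≤ Dim.m * -(∫ p, P207F.ricUT g p ∂(P207F.liou (P207F.stdB (Dim.m + 1)) g)) := by
    rw [hh]
    exact sq_entropy_le hΦ D hN' hφ hμ hm heq
  have hn : (((Dim.m + 1 : ℕ) : ℝ) - 1) = Dim.m := by push_cast; ring
  have hflow : ∀ s (f : Fr g), P207F.geoFlow g s (f.ut 0) = ((horFlows g).Φ 0 s f).ut 0 :=
    fun s f => (hΦ.ut_eq hφ s f).symm
  set S := SPH.H128.sysOf hΦ ((horFlows g).cont 0) D.ur D.cont D.hi with hS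
  have hK : ∀ f x, 0 ≤ x ⬝ᵥ (S.K f *ᵥ x) := by
    obtain ⟨lam, Lam, hl, hle, hb⟩ := H832.N4.exists_Km_neg hN'
    intro f x
    refine le_trans ?_ (hb f x).1
    exact mul_nonneg (sq_nonneg _) (Finset.sum_nonneg fun i _ => mul_self_nonneg _)
  rw [hn, ← hh]
  refine ⟨?_, ?_, ?_, hsq, ?_⟩
  · intro h0
    rw [h0, ENNReal.toReal_top] at hh
    exact hpos.ne' hh
  · rintro c ⟨v, hv⟩
    obtain ⟨f, rfl⟩ := H892.exists_frame_ut v
    obtain ⟨C, hC⟩ := ric_orbit R
    refine le_of_freq (C := C) (hv.mono fun T hT h0 => ?_)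
    have h1 := hC f T h0
    have e : ∫ t in (0 : ℝ)..T, -P207F.ricUT g (P207F.geoFlow g t (f.ut 0)) =
        ∫ s in (0 : ℝ)..T, (Km g ((horFlows g).Φ 0 s f)).trace := by
      refine intervalIntegral.integral_congr fun s _ => ?_
      change -P207F.ricUT g (P207F.geoFlow g s (f.ut 0)) = _
      rw [hflow, ricUT_eq, neg_neg]
    rw [e] at hT
    have h2 := mul_le_mul_of_nonneg_left hT (Nat.cast_nonneg (α := ℝ) Dim.m)
    linarith
  · rintro d ⟨v, hv⟩
    obtain ⟨f, rfl⟩ := H892.exists_frame_ut v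
    obtain ⟨C, hC⟩ := SPH.H453.bw S hK
    obtain ⟨C', hC'⟩ := tr_orbit R
    refine le_of_freq (C := C' + C) (hv.mono fun T hT h0 => ?_)
    have h1 := hC f T h0
    have h2 := hC' f T
    have e : ∫ t in (0 : ℝ)..T, P207F.sqrtCurv g (P207F.geoFlow g t (f.ut 0)) =
        ∫ s in (0 : ℝ)..T, SPH.H453.qK (S.K (S.Φ s f)) := by
      refine intervalIntegral.integral_congr fun s _ => ?_
      change P207F.sqrtCurv g (P207F.geoFlow g s (f.ut 0)) = _
      rw [hflow, SPH.H453.sqrtCurv_frame]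
      rfl
    rw [e] at hT
    have h3 : ∫ s in (0 : ℝ)..T, (S.U (S.Φ s f)).trace ≤ h * T + C' := h2
    linarith
  · obtain ⟨F, hF⟩ := exists_sqrt (g := g)
    have h1 := SPH.H453.integral_qK_le mP S (fun t => (horFlows g).mp_zero hP hφ hmp t) hK
    have e1 : ∫ v, P207F.sqrtCurv g v ∂(P207F.liou (P207F.stdB (Dim.m + 1)) g) =
        ∫ f, SPH.H453.qK (S.K f) ∂mP := by
      have e2 : ∫ v, P207F.sqrtCurv g v ∂(P207F.liou (P207F.stdB (Dim.m + 1)) g) =
          ∫ v, F v ∂(P207F.liou (P207F.stdB (Dim.m + 1)) g) :=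
        integral_congr_ae (ae_of_all _ fun v => (hF v).symm)
      refine e2.trans ((int_ut hP.ut F).trans ?_)
      refine integral_congr_ae (ae_of_all _ fun f => ?_)
      change F (f.ut 0) = _
      rw [hF, SPH.H453.sqrtCurv_frame]
      rfl
    have e3 : ∫ f, (S.U f).trace ∂mP = h := by
      refine Eq.trans ?_ ((int_ut hP.ut D.t).symm.trans hI)
      exact integral_congr_ae (ae_of_all _ fun f => (D.t_eq f).symm)
    rw [e1, ← e3]
    exact h1

end

/-- **the inequalities along all rays** -/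
theorem ray_ineq {n : ℕ} (hn : 3 ≤ n) {M : Type} [TopologicalSpace M] [CompactSpace M] [T2Space M]
    [ConnectedSpace M] [ChartedSpace (EV n) M] [IsManifold 𝓘(ℝ, EV n) ∞ M] [MeasurableSpace M]
    [BorelSpace M] (g : RMetric (EV n) M) (hN : P207F.NegCurvature g) :
    P207F.Ray.RayIneq g := by
  obtain ⟨k, rfl⟩ : ∃ k, n = k + 1 := ⟨n - 1, by omega⟩
  have h2 : 2 ≤ k := by omega
  exact @ray_dim (Dim.mk k h2) M _ _ _ _ _ g _ _ _ hN

end Vale.Agent.P207.H596.Ray
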