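import Vale.Agent.P207.H596.Ray.Ineq
import Vale.Agent.P207.SPH.H453.RayG
import Vale.Agent.P207.SPH.H40.RayL

/-!
# P207: the extremal classes along one ray
-/

open scoped Manifold ContDiff ENNReal Topology Matrix
open Bundle MeasureTheory Set Filter

set_option maxSynthPendingDepth 3
set_option linter.unusedSectionVars false

noncomputable section

namespace Vale.Agent.P207.H596.Ray

open Vale.Agent.P255 (RMetric)
open Vale.Agent.P207 Vale.Agent.P207.Q Vale.Agent.P207.Q.H130 Vale.Agent.P207.N4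

section

variable [Dim] {M : Type} [TopologicalSpace M] [ChartedSpace (EV (Dim.m + 1)) M]
  [IsManifold 𝓘(ℝ, EV (Dim.m + 1)) ∞ M] [CompactSpace M] [T2Space M]
  {g : RMetric (EV (Dim.m + 1)) M}

/-- the system of the metric, with the mean of `tr U`, if the entropies are equal -/
theorem exists_sys [ConnectedSpace M] [MeasurableSpace M] [BorelSpace M]
    (hN : P207F.NegCurvature g)
    (he : P207F.hLiou (P207F.stdB (Dim.m + 1)) g = P207F.hTop g) :
    ∃ (S : SPH.Sys Dim.m (Fr g)) (mP : Measure (Fr g)), IsProbabilityMeasure mP ∧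
      mP.IsOpenPosMeasure ∧ (∀ t, MeasurePreserving (S.Φ t) mP mP) ∧ (∀ f, S.K f = Km g f) ∧
      ∫ f, (S.U f).trace ∂mP = (P207F.hTop g).toReal := by
  have hW := P207F.wellDefined (n := Dim.m + 1) (by have := Dim.two_le; omega) g
  have hφ := (hW.1 _).2 rfl
  have hμ := (hW.2.1 _).2 rfl
  have hm := (hW.2.2 _).2 rfl
  have heq : ksEntropy (P207F.liou (P207F.stdB (Dim.m + 1)) g) (P207F.geoFlow g 1) =
      topEntropy (P207F.geoFlow g 1) := he
  have hN' : NegCurvature g := P207F.negCurvature_iff.1 hN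
  obtain ⟨-, hne, hmp, mP, hP, hprob, hop⟩ := H582.exists_setting hφ hμ hm
  obtain ⟨D⟩ := N4.exists_MDat hN' hφ
  have hΦ := (horFlows g).hor 0
  obtain ⟨h, hh⟩ : ∃ h, h = (P207F.hTop g).toReal := ⟨_, rfl⟩
  have hI : ∫ p, D.t p ∂(P207F.liou (P207F.stdB (Dim.m + 1)) g) = h := by
    obtain ⟨h1, h2, -⟩ := exists_psi_N3 hΦ D hN' hφ hμ hm heq
    rw [hh]
    exact h2
  refine ⟨SPH.H128.sysOf hΦ ((horFlows g).cont 0) D.ur D.cont D.hi, mP, hprob, hop,
    fun t => (horFlows g).mp_zero hP hφ hmp t, fun f => rfl, ?_⟩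
  rw [← hh]
  refine Eq.trans ?_ ((int_ut hP.ut D.t).symm.trans hI)
  exact integral_congr_ae (ae_of_all _ fun f => (D.t_eq f).symm)

/-- **the core of the extremal classes**, in the dimension `Dim.m + 1` -/
theorem light_dim [ConnectedSpace M] [MeasurableSpace M] [BorelSpace M]
    (hN : P207F.NegCurvature g) (h : P207F.RayLow g ∨ P207F.RayHigh g)
    (he : P207F.hLiou (P207F.stdB (Dim.m + 1)) g = P207F.hTop g) :
    ∃ κ, P207F.ConstCurvature g κ := by
  obtain ⟨-, h1, h2, -, -⟩ := ray_dim hN he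
  obtain ⟨S, mP, hprob, hop, hmp, hK, hI⟩ := exists_sys hN he
  have hn : (((Dim.m + 1 : ℕ) : ℝ) - 1) = Dim.m := by push_cast; ring
  have hm1 : 1 ≤ Dim.m := by have := Dim.two_le; omega
  have hm0 : (0 : ℝ) ≤ Dim.m := Nat.cast_nonneg _
  rcases h with ⟨a, ha, hS, hR⟩ | ⟨b, hb, hS, hR⟩
  · refine ⟨a ^ 2, SPH.H453.const_low hm1 hS fun f => ?_⟩
    rw [← hK f]
    refine SPH.H453.trace_eq_low mP S hmp ha.le (fun f x => ?_) ?_ f
    · rw [hK]
      exact SPH.H453.Km_ge_of hS f x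
    · rw [hI]
      have h3 := h1 _ hR
      rw [hn] at h3
      have h4 : (P207F.hTop g).toReal ^ 2 ≤ (Dim.m * a) ^ 2 := by nlinarith
      exact (le_abs_self _).trans (abs_le_of_sq_le_sq h4 (mul_nonneg hm0 ha.le))
  · refine ⟨b ^ 2, SPH.H453.const_high hm1 hS fun f => ?_⟩
    rw [← hK f]
    refine SPH.H453.trace_eq_high mP S hmp hb.le (fun f x => ?_) ?_ f
    · rw [hK]
      exact SPH.H453.Km_le_of hS f x
    · rw [hI]
      have h3 := h2 _ hR
      rwa [hn] at h3

end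

/-- **the core of the extremal classes** -/
theorem light_core {n : ℕ} (hn : 3 ≤ n) {M : Type} [TopologicalSpace M] [CompactSpace M]
    [T2Space M] [ConnectedSpace M] [ChartedSpace (EV n) M] [IsManifold 𝓘(ℝ, EV n) ∞ M]
    [MeasurableSpace M] [BorelSpace M] (g : RMetric (EV n) M) (hN : P207F.NegCurvature g)
    (h : P207F.RayLow g ∨ P207F.RayHigh g)
    (he : P207F.hLiou (P207F.stdB n) g = P207F.hTop g) : ∃ κ, P207F.ConstCurvature g κ := by
  obtain ⟨k, rfl⟩ : ∃ k, n = k + 1 := ⟨n - 1, by omega⟩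
  have h2 : 2 ≤ k := by omega
  exact @light_dim (Dim.mk k h2) M _ _ _ _ _ g _ _ _ hN h he

/-- **the light statement** -/
theorem light {n : ℕ} (hn : 3 ≤ n) (M : Type) [TopologicalSpace M] [CompactSpace M]
    [T2Space M] [ConnectedSpace M] [ChartedSpace (EV n) M] [IsManifold 𝓘(ℝ, EV n) ∞ M]
    [MeasurableSpace M] [BorelSpace M] :
    (∀ g : RMetric (EV n) M, P207F.WellDefined (P207F.stdB n) g) ∧
    ∀ g : RMetric (EV n) M, P207F.NegCurvature g →
      (P207F.RayGap g → P207F.hLiou (P207F.stdB n) g < P207F.hTop g ∧ ¬ P207F.LocSymmetric g) ∧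
      (P207F.RayLow g ∨ P207F.RayHigh g →
        P207F.hLiou (P207F.stdB n) g ≤ P207F.hTop g ∧
        (P207F.hLiou (P207F.stdB n) g = P207F.hTop g ↔ P207F.LocSymmetric g) ∧
        (P207F.hLiou (P207F.stdB n) g = P207F.hTop g ↔
          ∃ κ : ℝ, 0 < κ ∧ P207F.ConstCurvature g κ)) :=
  P207F.Ray.ray_light hn (fun g hN => ray_ineq hn g hN)
    (fun g hN h he => light_core hn g hN h he)

end Vale.Agent.P207.H596.Ray
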