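import Vale.Agent.P207.N4.H348.AcX
import Vale.Agent.P207.N4.Geo.Glue
import Vale.Agent.P207.N4.Geo.MDat
import Vale.Agent.P207.N4.Geo.OverA
import Vale.Agent.P207.N4.H747.USysI
import Vale.Agent.P207.N4.H76.In3A
import Vale.Agent.P207.N4.H863.HoldA
import Vale.Agent.P207.N4.Geo.RicAv

/-!
# P207: the continuous solution of the cohomological equation in the case of equality
-/

open scoped Manifold ContDiff ENNReal Topology Matrix
open Bundle MeasureTheory Set Filter

set_option maxSynthPendingDepth 3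
set_option linter.unusedSectionVars false

noncomputable section

namespace Vale.Agent.P207.H596.Ray

open Vale.Agent.P255 (RMetric)
open Vale.Agent.P207 Vale.Agent.P207.Q Vale.Agent.P207.Q.H130 Vale.Agent.P207.N4

/-- **the continuous solution of `X r + tr U = h`**, if the Liouville entropy is the topological
entropy `h` -/
theorem exists_rdat [Dim] {M : Type} [TopologicalSpace M] [ChartedSpace (EV (Dim.m + 1)) M]
    [IsManifold 𝓘(ℝ, EV (Dim.m + 1)) ∞ M] [CompactSpace M] [T2Space M] [ConnectedSpace M]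
    {g : RMetric (EV (Dim.m + 1)) M} [Nonempty (Fr g)] [MeasurableSpace M] [BorelSpace M]
    (hN : NegCurvature g) (D : N4.MDat g ((horFlows g).Φ 0))
    {φ : ℝ → UT g → UT g} (hφ : IsGeoFlow g φ) {μ : Measure M} {m : Measure (UT g)}
    (hμ : IsRiemVol g μ) (hm : IsLiouville g μ m)
    (heq : ksEntropy m (φ 1) = topEntropy (φ 1)) :
    Nonempty (N4.RDat D (topEntropy (φ 1)).toReal) := by
  obtain ⟨f⟩ := ‹Nonempty (Fr g)›
  let Dm : N4.MDat g (N4.H747.fl g) := D
  obtain ⟨ρ, hT⟩ := N4.H747.exists_tubeR (g := g)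
  obtain ⟨ε, δ, gs, hg⟩ := N4.H747.exists_slope_fr Dm hT
  obtain ⟨θ, hθ, hold⟩ := N4.H863.hold_dirS hN f.pt Dm hT hg
  obtain ⟨r₀, t₁, χ, hc⟩ := (N4.H76.in3A hN f.pt Dm hT hg hθ hold).exists_cst
  let o := N3.H465.toMt (sys g (npc_of_neg hN)) f.pt 0
  let _ : MeasurableSpace ((N4.H156.geoA hN f.pt).Bnd o) := borel _
  have : BorelSpace ((N4.H156.geoA hN f.pt).Bnd o) := ⟨rfl⟩
  obtain ⟨ν₀, -, h⟩ := N4.H348.hopfAC_model hN f.pt hc o D hφ hμ hm
  have hfr : ∀ x y : N3.H465.Xt g (npc_of_neg hN) f.pt,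
      dist (N4.frm x) (N4.frm y) ≤ 1 * dist x y := fun x y => by
    rw [one_mul]
    exact N3.H465.PB.dist_f_le x y
  exact (N4.over_leaf hc o).exists_RDat ((horFlows g).hor 0) ((horFlows g).cont 0) D hN hφ hμ hm heq
    (N4.H732.hold_t_over ((horFlows g).hor 0) D hfr)
    (N4.H732.hold_t_flip_over ((horFlows g).hor 0) D (N4.over_leaf hc o) hfr) h

end Vale.Agent.P207.H596.Ray
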